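import Mathlib

/-!
# P160, job N3: the number of labellings with small labels off a set `I`
-/

open Finset

namespace Vale.Agent.Lib.P160.H69

theorem card_filter_val_lt_le (L k : ℕ) :
    (univ.filter fun x : Fin (L + k) => x.val < L).card ≤ L := by
  have h : (univ.filter fun x : Fin (L + k) => x.val < L).card ≤ (Finset.range L).card := by
    apply Finset.card_le_card_of_injOn (fun x => x.val)
    · intro x hx
      have hx' := (Finset.mem_filter.mp (Finset.mem_coe.mp hx)).2
      exact Finset.mem_coe.mpr (Finset.mem_range.mpr hx')
    · intro x _ y _ hxy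
      exact Fin.ext hxy
  rwa [Finset.card_range] at h

theorem card_labels {n : ℕ} (I : Finset (Fin n)) (L k : ℕ) (hL : 1 ≤ L) :
    (univ.filter fun p' : Fin n → Fin (L + k) => ∀ j, j ∉ I → (p' j).val < L).card ≤
      L ^ n * (L + k) ^ I.card := by
  classical
  have hsub : (univ.filter fun p' : Fin n → Fin (L + k) => ∀ j, j ∉ I → (p' j).val < L) ⊆
      Fintype.piFinset (fun j : Fin n =>
        if j ∈ I then (univ : Finset (Fin (L + k)))
        else univ.filter fun x : Fin (L + k) => x.val < L) := by
    intro p' hp'
    rw [Finset.mem_filter] at hp'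
    rw [Fintype.mem_piFinset]
    intro j
    by_cases hj : j ∈ I
    · rw [if_pos hj]; exact Finset.mem_univ _
    · rw [if_neg hj, Finset.mem_filter]; exact ⟨Finset.mem_univ _, hp'.2 j hj⟩
  refine le_trans (Finset.card_le_card hsub) ?_
  rw [Fintype.card_piFinset]
  have hterm : ∀ j : Fin n,
      (if j ∈ I then (univ : Finset (Fin (L + k)))
        else univ.filter fun x : Fin (L + k) => x.val < L).card ≤
      L * (if j ∈ I then (L + k) else 1) := by
    intro j
    by_cases hj : j ∈ I
    · rw [if_pos hj, if_pos hj, Finset.card_univ, Fintype.card_fin]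
      exact Nat.le_mul_of_pos_left _ hL
    · rw [if_neg hj, if_neg hj, mul_one]
      exact card_filter_val_lt_le L k
  refine le_trans (Finset.prod_le_prod' fun j _ => hterm j) ?_
  rw [Finset.prod_mul_distrib, Finset.prod_const, Finset.card_univ, Fintype.card_fin,
    Finset.prod_ite_mem, Finset.univ_inter, Finset.prod_const]

end Vale.Agent.Lib.P160.H69
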