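import Mathlib

/-!
# P160, job SS-1: the abstract lazy-chain lemma (steps (ii), (iii) of report 2695)

A nonnegative weight `q` on pairs of states, every move strictly increasing `f`, keeping the
size `sz` or raising it by one (entry moves of total in-weight at most `1/2`), with the exact
balance `in - out = (sz - n/2)/n` and `out ≤ n`.  Then the out-weight carried by one level set
of `f`, restricted to the window `sz ≥ n/2 - √n`, is at most `10 |Ω| / √n`.
-/

open Finset

namespace Vale.Agent.Lib.P160.H69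

noncomputable section

variable {Ω : Type} [Fintype Ω]

/-- Mass after `k` steps of the lazy chain (laziness `n`) started from counting measure. -/
def uu (q : Ω → Ω → ℝ) (n : ℕ) : ℕ → Ω → ℝ
  | 0 => fun _ => 1
  | k + 1 => fun S => uu q n k S * (1 - (∑ S', q S S') / (n : ℝ))
      + (1 / (n : ℝ)) * ∑ S', q S' S * uu q n k S'

theorem uu_zero (q : Ω → Ω → ℝ) (n : ℕ) (S : Ω) : uu q n 0 S = 1 := rfl

theorem uu_succ (q : Ω → Ω → ℝ) (n k : ℕ) (S : Ω) :
    uu q n (k + 1) S = uu q n k S * (1 - (∑ S', q S S') / (n : ℝ))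
      + (1 / (n : ℝ)) * ∑ S', q S' S * uu q n k S' := rfl

/-- The comparison function of the induction. -/
def psi (n k : ℕ) (t : ℝ) : ℝ :=
  Real.exp ((k : ℝ) * (t - (n : ℝ) / 2) / ((n : ℝ) * n)
    - (k : ℝ) * ((k : ℝ) - 1) / (4 * (n : ℝ) * ((n : ℝ) * n)) - (k : ℝ) / ((n : ℝ) * n))

theorem psi_pos (n k : ℕ) (t : ℝ) : 0 < psi n k t := Real.exp_pos _

theorem psi_zero (n : ℕ) (t : ℝ) : psi n 0 t = 1 := by
  simp [psi]

theorem psi_succ (n k : ℕ) (t : ℝ) (hn : 0 < n) :
    psi n (k + 1) t = psi n k t *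
      Real.exp ((t - (n : ℝ) / 2) / ((n : ℝ) * n) - (k : ℝ) / (2 * (n : ℝ) * ((n : ℝ) * n))
        - 1 / ((n : ℝ) * n)) := by
  have hN : (n : ℝ) ≠ 0 := by exact_mod_cast hn.ne'
  unfold psi
  rw [← Real.exp_add]
  congr 1
  push_cast
  field_simp
  ring

theorem psi_sub_one (n k : ℕ) (t : ℝ) (hn : 0 < n) :
    psi n k (t - 1) = psi n k t * Real.exp (-((k : ℝ) / ((n : ℝ) * n))) := by
  have hN : (n : ℝ) ≠ 0 := by exact_mod_cast hn.ne'
  unfold psi
  rw [← Real.exp_add]
  congr 1
  field_simp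
  ring

theorem uu_nonneg (q : Ω → Ω → ℝ) (n : ℕ) (hn : 0 < n) (hq0 : ∀ S S', 0 ≤ q S S')
    (hout : ∀ S, ∑ S', q S S' ≤ n) : ∀ k S, 0 ≤ uu q n k S := by
  intro k
  induction k with
  | zero => intro S; rw [uu_zero]; exact zero_le_one
  | succ k ih =>
    intro S
    have hN : (0 : ℝ) < n := by exact_mod_cast hn
    have h1 : 0 ≤ 1 - (∑ S', q S S') / (n : ℝ) := by
      rw [sub_nonneg, div_le_one hN]; exact hout S
    have h2 : 0 ≤ ∑ S', q S' S * uu q n k S' :=
      Finset.sum_nonneg fun S' _ => mul_nonneg (hq0 S' S) (ih S')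
    have h3 : 0 ≤ 1 / (n : ℝ) := by positivity
    rw [uu_succ]
    exact add_nonneg (mul_nonneg (ih S) h1) (mul_nonneg h3 h2)

theorem exp_neg_three_half : (1 / 5 : ℝ) ≤ Real.exp (-(3 / 2)) := by
  have h1 : Real.exp (-(3 / 2 : ℝ)) = Real.exp (-(1 / 8)) ^ 12 := by
    rw [← Real.exp_nat_mul]; norm_num
  have h78 : (7 / 8 : ℝ) ≤ Real.exp (-(1 / 8)) := by
    have := Real.add_one_le_exp (-(1 / 8 : ℝ)); linarith
  rw [h1]
  calc (1 / 5 : ℝ) ≤ (7 / 8) ^ 12 := by norm_num
    _ ≤ Real.exp (-(1 / 8)) ^ 12 := pow_le_pow_left₀ (by norm_num) h78 12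

theorem psi_window (n k : ℕ) (hn : 16 ≤ n) (t : ℝ) (ht : (n : ℝ) / 2 - Real.sqrt n ≤ t)
    (hk : (k : ℝ) ≤ (n : ℝ) * Real.sqrt n) : 1 / 5 ≤ psi n k t := by
  have hN16 : (16 : ℝ) ≤ n := by exact_mod_cast hn
  have hN : (0 : ℝ) < n := by linarith
  have hss : Real.sqrt n * Real.sqrt n = (n : ℝ) := Real.mul_self_sqrt hN.le
  have hs0 : 0 ≤ Real.sqrt n := Real.sqrt_nonneg _
  unfold psi
  refine le_trans exp_neg_three_half (Real.exp_le_exp.mpr ?_)
  generalize Real.sqrt (n : ℝ) = s at *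
  generalize (n : ℝ) = N at *
  have hs4 : 4 ≤ s := by
    by_contra h
    rw [not_le] at h
    nlinarith
  have hk0 : (0 : ℝ) ≤ k := Nat.cast_nonneg _
  have hNN : 0 < N * N := by positivity
  have h1 : -1 ≤ (k : ℝ) * (t - N / 2) / (N * N) := by
    rw [le_div_iff₀ hNN]
    have ha : (k : ℝ) * (-s) ≤ (k : ℝ) * (t - N / 2) :=
      mul_le_mul_of_nonneg_left (by linarith) hk0
    have hb : (k : ℝ) * s ≤ N * s * s := mul_le_mul_of_nonneg_right hk hs0
    nlinarith
  have h2 : (k : ℝ) * ((k : ℝ) - 1) / (4 * N * (N * N)) ≤ 1 / 4 := by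
    rw [div_le_iff₀ (by positivity)]
    have hb : (k : ℝ) * k ≤ (N * s) * (N * s) := mul_le_mul hk hk hk0 (by positivity)
    nlinarith
  have h3 : (k : ℝ) / (N * N) ≤ 1 / 4 := by
    rw [div_le_iff₀ hNN]
    nlinarith
  linarith

/-- Step (ii): the chain mass dominates the comparison function. -/
theorem uu_ge (q : Ω → Ω → ℝ) (sz : Ω → ℕ) (n : ℕ) (hn : 16 ≤ n)
    (hq0 : ∀ S S', 0 ≤ q S S')
    (hsz : ∀ S' S, q S' S ≠ 0 → sz S' = sz S ∨ sz S' + 1 = sz S)
    (hent : ∀ S, ∑ S' ∈ univ.filter (fun S' => sz S' + 1 = sz S), q S' S ≤ 1 / 2)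
    (hbal : ∀ S, ∑ S', q S' S - ∑ S', q S S' = ((sz S : ℝ) - n / 2) / n)
    (hout : ∀ S, ∑ S', q S S' ≤ n) (hszn : ∀ S, sz S ≤ n) :
    ∀ k : ℕ, (k : ℝ) ≤ (n : ℝ) * Real.sqrt n → ∀ S, psi n k (sz S) ≤ uu q n k S := by
  have hn0 : 0 < n := by omega
  have hN16 : (16 : ℝ) ≤ n := by exact_mod_cast hn
  have hN : (0 : ℝ) < n := by linarith
  have hsq : Real.sqrt n ≤ (n : ℝ) / 4 := by
    rw [Real.sqrt_le_left (by positivity)]
    nlinarith
  intro k
  induction k with
  | zero => intro _ S; rw [uu_zero, psi_zero]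
  | succ k ih =>
    intro hk S
    have hk0 : (0 : ℝ) ≤ k := Nat.cast_nonneg _
    have hk' : (k : ℝ) ≤ (n : ℝ) * Real.sqrt n := by push_cast at hk; linarith
    have ih' := ih hk'
    have hkN : (k : ℝ) ≤ (n : ℝ) * n / 4 := by nlinarith
    have hj0 : (0 : ℝ) ≤ (sz S : ℝ) := Nat.cast_nonneg _
    have hjN : (sz S : ℝ) ≤ n := by exact_mod_cast hszn S
    have hbal' := hbal S
    have hout' := hout S
    have hsucc := psi_succ n k (sz S) hn0
    have hsub := psi_sub_one n k (sz S) hn0
    have hP : 0 < psi n k (sz S) := psi_pos _ _ _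
    rw [uu_succ, hsucc]
    -- predecessors of one size less
    have hpred : ∀ S', sz S' + 1 = sz S → psi n k ((sz S : ℝ) - 1) ≤ uu q n k S' := by
      intro S' h
      have := ih' S'
      have hc : ((sz S' : ℕ) : ℝ) = (sz S : ℝ) - 1 := by rw [← h]; push_cast; ring
      rwa [hc] at this
    have hsame : ∀ S', sz S' = sz S → psi n k (sz S) ≤ uu q n k S' := by
      intro S' h
      have := ih' S'
      rwa [h] at this
    have hIH := ih' S
    have hentS := hent S
    generalize psi n k ((sz S : ℝ) - 1) = P' at *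
    generalize psi n k (sz S) = P at *
    generalize hout_def : ∑ S', q S S' = out at *
    generalize hinn_def : ∑ S', q S' S = inn at *
    generalize (sz S : ℝ) = j at *
    generalize (n : ℝ) = N at *
    have hNN : 0 < N * N := by positivity
    have hkNN : 0 ≤ (k : ℝ) / (N * N) := by positivity
    -- step 1
    have h1 : P * (1 - out / N) ≤ uu q n k S * (1 - out / N) := by
      apply mul_le_mul_of_nonneg_right hIH
      rw [sub_nonneg, div_le_one hN]; exact hout'
    have hPP : P - P' ≤ P * ((k : ℝ) / (N * N)) := by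
      rw [hsub]
      have := Real.add_one_le_exp (-((k : ℝ) / (N * N)))
      nlinarith
    have hPP0 : 0 ≤ P - P' := by
      rw [hsub]
      have : Real.exp (-((k : ℝ) / (N * N))) ≤ 1 := by
        rw [Real.exp_le_one_iff]
        linarith
      nlinarith
    have h2 : inn * P - (P - P') * (1 / 2) ≤ ∑ S', q S' S * uu q n k S' := by
      have e1 : ∀ S', q S' S * P - (if sz S' + 1 = sz S then q S' S * (P - P') else 0)
          ≤ q S' S * uu q n k S' := by
        intro S'
        by_cases hq : q S' S = 0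
        · rw [hq]; split_ifs <;> simp
        · rcases hsz S' S hq with h | h
          · have hne : ¬ (sz S' + 1 = sz S) := by omega
            rw [if_neg hne, sub_zero]
            exact mul_le_mul_of_nonneg_left (hsame S' h) (hq0 S' S)
          · rw [if_pos h]
            have := mul_le_mul_of_nonneg_left (hpred S' h) (hq0 S' S)
            linarith
      calc inn * P - (P - P') * (1 / 2)
          ≤ inn * P - (P - P') *
              ∑ S' ∈ univ.filter (fun S' => sz S' + 1 = sz S), q S' S := by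
            have := mul_le_mul_of_nonneg_left hentS hPP0
            linarith
        _ = ∑ S', (q S' S * P
              - (if sz S' + 1 = sz S then q S' S * (P - P') else 0)) := by
            rw [Finset.sum_sub_distrib, ← Finset.sum_mul, ← Finset.sum_filter,
              ← Finset.sum_mul, hinn_def]
            ring
        _ ≤ _ := Finset.sum_le_sum fun S' _ => e1 S'
    -- the exponent
    have hA1 : -(1 / 2) ≤ (j - N / 2) / N := by rw [le_div_iff₀ hN]; linarith
    have hA2 : (j - N / 2) / N ≤ 1 / 2 := by rw [div_le_iff₀ hN]; linarith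
    have hB1 : 0 ≤ (k : ℝ) / (2 * N * N) := by positivity
    have hB2 : (k : ℝ) / (2 * N * N) ≤ 1 / 8 := by
      rw [div_le_iff₀ (by positivity)]; nlinarith
    have hC1 : 0 ≤ 1 / N := by positivity
    have hC2 : 1 / N ≤ 1 / 16 := by rw [div_le_iff₀ hN]; linarith
    have hyeq : (j - N / 2) / (N * N) - (k : ℝ) / (2 * N * (N * N)) - 1 / (N * N)
        = ((j - N / 2) / N - (k : ℝ) / (2 * N * N) - 1 / N) * (1 / N) := by
      field_simp
    generalize hydef : (j - N / 2) / (N * N) - (k : ℝ) / (2 * N * (N * N)) - 1 / (N * N) = y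
      at *
    have hy : |y| ≤ 1 / N := by
      rw [hyeq, abs_mul, abs_of_nonneg hC1]
      have : |(j - N / 2) / N - (k : ℝ) / (2 * N * N) - 1 / N| ≤ 1 := by
        rw [abs_le]; constructor <;> linarith
      calc _ ≤ 1 * (1 / N) := mul_le_mul_of_nonneg_right this hC1
        _ = 1 / N := one_mul _
    have hy1 : |y| ≤ 1 := le_trans hy (by linarith)
    have hexp := Real.abs_exp_sub_one_sub_id_le hy1
    have hexp' : Real.exp y ≤ 1 + y + y ^ 2 := by
      have := (abs_le.mp hexp).2; linarith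
    have hy2 : y ^ 2 ≤ 1 / (N * N) := by
      have h0 : 0 ≤ |y| := abs_nonneg y
      calc y ^ 2 = |y| ^ 2 := (sq_abs y).symm
        _ ≤ (1 / N) ^ 2 := pow_le_pow_left₀ h0 hy 2
        _ = 1 / (N * N) := by field_simp
    have h3 : (1 / N) * (inn * P - (P - P') * (1 / 2))
        ≤ (1 / N) * ∑ S', q S' S * uu q n k S' :=
      mul_le_mul_of_nonneg_left h2 hC1
    have h4 : P * Real.exp y ≤ P * (1 + y + 1 / (N * N)) := by
      apply mul_le_mul_of_nonneg_left _ hP.le; linarith
    have h6 : (1 / N) * (inn * P - P * ((k : ℝ) / (N * N)) * (1 / 2))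
        ≤ (1 / N) * (inn * P - (P - P') * (1 / 2)) := by
      apply mul_le_mul_of_nonneg_left _ hC1; linarith
    have h7 : P * (1 + y + 1 / (N * N))
        = P * (1 - out / N) + (1 / N) * (inn * P - P * ((k : ℝ) / (N * N)) * (1 / 2)) := by
      have hi : inn = out + (j - N / 2) / N := by linarith
      rw [hi, ← hydef]
      field_simp
      ring
    linarith

/-- Step (iii): the mass of `{f ≤ x}` drops by the out-flow of the level set `{f = x}`. -/
theorem mm_step (q : Ω → Ω → ℝ) (f : Ω → ℝ) (n : ℕ) (hn : 0 < n)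
    (hq0 : ∀ S S', 0 ≤ q S S') (hf : ∀ S S', q S S' ≠ 0 → f S < f S')
    (hout : ∀ S, ∑ S', q S S' ≤ n) (x : ℝ) (k : ℕ) :
    ∑ S ∈ univ.filter (fun S => f S ≤ x), uu q n (k + 1) S ≤
      ∑ S ∈ univ.filter (fun S => f S ≤ x), uu q n k S
        - (1 / (n : ℝ)) * ∑ S ∈ univ.filter (fun S => f S = x), uu q n k S * ∑ S', q S S' := by
  have hN : (0 : ℝ) < n := by exact_mod_cast hn
  have hu := uu_nonneg q n hn hq0 hout k
  have hT : ∑ S ∈ univ.filter (fun S => f S ≤ x), ∑ S', q S' S * uu q n k S'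
      ≤ ∑ S' ∈ univ.filter (fun S' => f S' < x), uu q n k S' * ∑ S, q S' S := by
    calc ∑ S ∈ univ.filter (fun S => f S ≤ x), ∑ S', q S' S * uu q n k S'
        = ∑ S ∈ univ.filter (fun S => f S ≤ x),
            ∑ S' ∈ univ.filter (fun S' => f S' < x), q S' S * uu q n k S' := by
          apply Finset.sum_congr rfl
          intro S hS
          rw [Finset.mem_filter] at hS
          symm
          apply Finset.sum_subset (Finset.filter_subset _ _)
          intro S' _ hS'
          rw [Finset.mem_filter] at hS'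
          by_contra hne
          have hq : q S' S ≠ 0 := fun h => hne (by rw [h, zero_mul])
          exact hS' ⟨Finset.mem_univ _, lt_of_lt_of_le (hf S' S hq) hS.2⟩
      _ = ∑ S' ∈ univ.filter (fun S' => f S' < x),
            ∑ S ∈ univ.filter (fun S => f S ≤ x), q S' S * uu q n k S' := Finset.sum_comm
      _ ≤ ∑ S' ∈ univ.filter (fun S' => f S' < x), ∑ S, q S' S * uu q n k S' := by
          apply Finset.sum_le_sum
          intro S' _
          apply Finset.sum_le_sum_of_subset_of_nonneg (Finset.filter_subset _ _)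
          intro S _ _
          exact mul_nonneg (hq0 S' S) (hu S')
      _ = _ := by
          apply Finset.sum_congr rfl
          intro S' _
          rw [Finset.mul_sum]
          apply Finset.sum_congr rfl
          intro S _
          ring
  have hsplit : ∑ S ∈ univ.filter (fun S => f S ≤ x), uu q n k S * ∑ S', q S S'
      = ∑ S ∈ univ.filter (fun S => f S < x), uu q n k S * ∑ S', q S S'
        + ∑ S ∈ univ.filter (fun S => f S = x), uu q n k S * ∑ S', q S S' := by
    classical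
    rw [← Finset.sum_union]
    · apply Finset.sum_congr _ (fun _ _ => rfl)
      ext S
      simp only [Finset.mem_filter, Finset.mem_univ, true_and, Finset.mem_union]
      exact le_iff_lt_or_eq
    · rw [Finset.disjoint_filter]
      intro S _ h1 h2
      exact absurd h2 (ne_of_lt h1)
  have hexpand : ∑ S ∈ univ.filter (fun S => f S ≤ x), uu q n (k + 1) S
      = ∑ S ∈ univ.filter (fun S => f S ≤ x), uu q n k S
        - (1 / (n : ℝ)) * ∑ S ∈ univ.filter (fun S => f S ≤ x), uu q n k S * ∑ S', q S S'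
        + (1 / (n : ℝ)) * ∑ S ∈ univ.filter (fun S => f S ≤ x),
            ∑ S', q S' S * uu q n k S' := by
    rw [Finset.mul_sum, Finset.mul_sum, ← Finset.sum_sub_distrib, ← Finset.sum_add_distrib]
    apply Finset.sum_congr rfl
    intro S _
    rw [uu_succ]
    field_simp
  rw [hexpand, hsplit]
  have := mul_le_mul_of_nonneg_left hT (by positivity : (0 : ℝ) ≤ 1 / (n : ℝ))
  rw [mul_add]
  linarith

/-- **SS-1** (abstract chain lemma): the out-weight of one level set inside the window. -/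
theorem chain_level {Ω : Type} [Fintype Ω] [DecidableEq Ω] (q : Ω → Ω → ℝ) (f : Ω → ℝ)
    (sz : Ω → ℕ) (n : ℕ) (hn : 16 ≤ n)
    (hq0 : ∀ S S', 0 ≤ q S S') (hf : ∀ S S', q S S' ≠ 0 → f S < f S')
    (hsz : ∀ S' S, q S' S ≠ 0 → sz S' = sz S ∨ sz S' + 1 = sz S)
    (hent : ∀ S, ∑ S' ∈ univ.filter (fun S' => sz S' + 1 = sz S), q S' S ≤ 1 / 2)
    (hbal : ∀ S, ∑ S', q S' S - ∑ S', q S S' = ((sz S : ℝ) - n / 2) / n)
    (hout : ∀ S, ∑ S', q S S' ≤ n) (hszn : ∀ S, sz S ≤ n) (x : ℝ) :
    Real.sqrt n * ∑ S ∈ univ.filter (fun S => f S = x ∧ (n : ℝ) / 2 - Real.sqrt n ≤ sz S),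
      ∑ S', q S S' ≤ 10 * Fintype.card Ω := by
  have hn0 : 0 < n := by omega
  have hN16 : (16 : ℝ) ≤ n := by exact_mod_cast hn
  have hN : (0 : ℝ) < n := by linarith
  have hss : Real.sqrt n * Real.sqrt n = (n : ℝ) := Real.mul_self_sqrt hN.le
  have hs0 : 0 ≤ Real.sqrt n := Real.sqrt_nonneg _
  have hs4 : 4 ≤ Real.sqrt n := by
    by_contra h
    rw [not_le] at h
    nlinarith
  have hu := uu_nonneg q n hn0 hq0 hout
  have hge := uu_ge q sz n hn hq0 hsz hent hbal hout hszn
  have hOW0 : 0 ≤ ∑ S ∈ univ.filter (fun S => f S = x ∧ (n : ℝ) / 2 - Real.sqrt n ≤ sz S),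
      ∑ S', q S S' :=
    Finset.sum_nonneg fun S _ => Finset.sum_nonneg fun S' _ => hq0 S S'
  -- telescoping
  have htel : ∀ K : ℕ, ∑ S ∈ univ.filter (fun S => f S ≤ x), uu q n K S
      + ∑ k ∈ Finset.range K, (1 / (n : ℝ)) *
          ∑ S ∈ univ.filter (fun S => f S = x), uu q n k S * ∑ S', q S S'
      ≤ ∑ S ∈ univ.filter (fun S => f S ≤ x), uu q n 0 S := by
    intro K
    induction K with
    | zero => simp
    | succ K ih =>
      rw [Finset.sum_range_succ]
      have := mm_step q f n hn0 hq0 hf hout x K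
      linarith
  -- per-step lower bound
  have hstep : ∀ k : ℕ, (k : ℝ) ≤ (n : ℝ) * Real.sqrt n →
      (1 / 5) * ∑ S ∈ univ.filter (fun S => f S = x ∧ (n : ℝ) / 2 - Real.sqrt n ≤ sz S),
        ∑ S', q S S'
      ≤ ∑ S ∈ univ.filter (fun S => f S = x), uu q n k S * ∑ S', q S S' := by
    intro k hk
    rw [Finset.mul_sum]
    calc ∑ S ∈ univ.filter (fun S => f S = x ∧ (n : ℝ) / 2 - Real.sqrt n ≤ sz S),
          (1 / 5) * ∑ S', q S S'
        ≤ ∑ S ∈ univ.filter (fun S => f S = x ∧ (n : ℝ) / 2 - Real.sqrt n ≤ sz S),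
          uu q n k S * ∑ S', q S S' := by
          apply Finset.sum_le_sum
          intro S hS
          rw [Finset.mem_filter] at hS
          apply mul_le_mul_of_nonneg_right _ (Finset.sum_nonneg fun S' _ => hq0 S S')
          exact le_trans (psi_window n k hn _ hS.2.2 hk) (hge k hk S)
      _ ≤ _ := by
          apply Finset.sum_le_sum_of_subset_of_nonneg
          · intro S hS
            rw [Finset.mem_filter] at hS
            rw [Finset.mem_filter]
            exact ⟨hS.1, hS.2.1⟩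
          · intro S _ _
            exact mul_nonneg (hu k S) (Finset.sum_nonneg fun S' _ => hq0 S S')
  have hKle : ((⌊(n : ℝ) * Real.sqrt n⌋₊ : ℕ) : ℝ) ≤ (n : ℝ) * Real.sqrt n :=
    Nat.floor_le (by positivity)
  have hKge : (n : ℝ) * Real.sqrt n - 1 < ((⌊(n : ℝ) * Real.sqrt n⌋₊ : ℕ) : ℝ) := by
    have := Nat.lt_floor_add_one ((n : ℝ) * Real.sqrt n); linarith
  have h0 : ∑ S ∈ univ.filter (fun S => f S ≤ x), uu q n 0 S ≤ Fintype.card Ω := by
    simp only [uu_zero, Finset.sum_const, nsmul_eq_mul, mul_one]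
    exact_mod_cast Finset.card_le_univ _
  generalize ⌊(n : ℝ) * Real.sqrt n⌋₊ = K at hKle hKge
  have hKsum : (K : ℝ) * ((1 / (n : ℝ)) * ((1 / 5) *
        ∑ S ∈ univ.filter (fun S => f S = x ∧ (n : ℝ) / 2 - Real.sqrt n ≤ sz S),
          ∑ S', q S S'))
      ≤ ∑ k ∈ Finset.range K, (1 / (n : ℝ)) *
          ∑ S ∈ univ.filter (fun S => f S = x), uu q n k S * ∑ S', q S S' := by
    have h : ∑ k ∈ Finset.range K, (1 / (n : ℝ)) * ((1 / 5) *
          ∑ S ∈ univ.filter (fun S => f S = x ∧ (n : ℝ) / 2 - Real.sqrt n ≤ sz S),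
            ∑ S', q S S')
        ≤ ∑ k ∈ Finset.range K, (1 / (n : ℝ)) *
          ∑ S ∈ univ.filter (fun S => f S = x), uu q n k S * ∑ S', q S S' := by
      apply Finset.sum_le_sum
      intro k hk
      rw [Finset.mem_range] at hk
      apply mul_le_mul_of_nonneg_left _ (by positivity)
      apply hstep
      have : (k : ℝ) ≤ K := by exact_mod_cast hk.le
      linarith
    rw [Finset.sum_const, Finset.card_range, nsmul_eq_mul] at h
    exact h
  have hmK : 0 ≤ ∑ S ∈ univ.filter (fun S => f S ≤ x), uu q n K S :=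
    Finset.sum_nonneg fun S _ => hu K S
  have htelK := htel K
  generalize (∑ S ∈ univ.filter (fun S => f S = x ∧ (n : ℝ) / 2 - Real.sqrt n ≤ sz S),
      ∑ S', q S S') = OW at *
  generalize Real.sqrt (n : ℝ) = s at *
  generalize (n : ℝ) = N at *
  have hmain : (K : ℝ) * ((1 / N) * ((1 / 5) * OW)) ≤ Fintype.card Ω := by linarith
  have hK2 : N * s / 2 ≤ K := by nlinarith
  have h9 : (N * s / 2) * ((1 / N) * ((1 / 5) * OW)) ≤ Fintype.card Ω := by
    refine le_trans ?_ hmain
    exact mul_le_mul_of_nonneg_right hK2 (by positivity)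
  have e : (N * s / 2) * ((1 / N) * ((1 / 5) * OW)) = s * OW / 10 := by
    field_simp
    ring
  rw [e] at h9
  linarith

end

end Vale.Agent.Lib.P160.H69
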